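import Mathlib

/-! Bin packing: packings of finsets, the two-pointer greedy for sizes `> 1/3`, first fit. -/

namespace Vale.Agent.H13.BinPack

open Finset

variable {ι : Type*} [DecidableEq ι]

/-- the items of `S` can be packed in `k` bins -/
def PackN (a : ι → ℚ) (S : Finset ι) (k : ℕ) : Prop :=
  ∃ f : ι → ℕ, (∀ i ∈ S, f i < k) ∧ ∀ b, ∑ i ∈ S.filter (fun i => f i = b), a i ≤ 1

theorem add_set {a : ι → ℚ} {S T : Finset ι} {k : ℕ} (h : PackN a S k) (hd : Disjoint S T)
    (hT : ∑ i ∈ T, a i ≤ 1) : PackN a (S ∪ T) (k + 1) := by
  obtain ⟨f, hf, hb⟩ := h
  refine ⟨fun i => if i ∈ T then k else f i, ?_, ?_⟩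
  · intro i hi
    dsimp only
    split_ifs with h
    · omega
    · rcases Finset.mem_union.1 hi with h1 | h1
      · have := hf i h1; omega
      · exact absurd h1 h
  · intro b
    by_cases hbk : b = k
    · have : (S ∪ T).filter (fun i => (if i ∈ T then k else f i) = b) = T := by
        ext i
        simp only [Finset.mem_filter, Finset.mem_union]
        constructor
        · rintro ⟨h1, h2⟩
          by_contra h3
          rw [if_neg h3] at h2
          rcases h1 with h1 | h1
          · have := hf i h1; omega
          · exact h3 h1
        · intro h1
          refine ⟨Or.inr h1, ?_⟩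
          rw [if_pos h1, hbk]
      rw [this]
      exact hT
    · have : (S ∪ T).filter (fun i => (if i ∈ T then k else f i) = b) =
          S.filter (fun i => f i = b) := by
        ext i
        simp only [Finset.mem_filter, Finset.mem_union]
        constructor
        · rintro ⟨h1, h2⟩
          by_cases h3 : i ∈ T
          · rw [if_pos h3] at h2
            exact absurd h2.symm hbk
          · rw [if_neg h3] at h2
            exact ⟨h1.resolve_right h3, h2⟩
        · rintro ⟨h1, h2⟩
          have h3 : i ∉ T := Finset.disjoint_left.1 hd h1
          refine ⟨Or.inl h1, ?_⟩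
          rw [if_neg h3]
          exact h2
      rw [this]
      exact hb b

/-- the certificate -/
def Cert (a : ι → ℚ) (S : Finset ι) (k : ℕ) : Prop :=
  2 * k ≤ S.card + 1 ∨ ∃ α : ℚ, 1 / 3 < α ∧ α ≤ 1 / 2 ∧
    2 * k ≤ 2 * (S.filter (fun i => 1 - α < a i)).card +
      (S.filter (fun i => α ≤ a i ∧ a i ≤ 1 - α)).card + 1

theorem core (a : ι → ℚ) : ∀ (n : ℕ) (S : Finset ι), S.card = n →
    (∀ i ∈ S, 1 / 3 < a i ∧ a i ≤ 1) → ∃ k, PackN a S k ∧ Cert a S k := by
  intro n
  induction n using Nat.strong_induction_on with
  | _ n ih =>
    intro S hSn hS
    rcases S.eq_empty_or_nonempty with rfl | hne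
    · refine ⟨0, ⟨fun _ => 0, by simp, by simp⟩, Or.inl (by simp)⟩
    obtain ⟨x, hx, hxmax⟩ := S.exists_max_image a hne
    rcases (S.erase x).eq_empty_or_nonempty with he | hne'
    · have hSx : S = {x} := by
        rw [← Finset.insert_erase hx, he]
        rfl
      refine ⟨1, ?_, Or.inl ?_⟩
      · have h0 : PackN a (∅ : Finset ι) 0 := ⟨fun _ => 0, by simp, by simp⟩
        have := add_set h0 (T := {x}) (by simp) (by simpa using (hS x hx).2)
        rw [hSx]
        simpa using this
      · rw [hSx]; simp
    obtain ⟨s, hs, hsmin⟩ := (S.erase x).exists_min_image a hne'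
    have hsS : s ∈ S := Finset.mem_of_mem_erase hs
    have hsx : s ≠ x := Finset.ne_of_mem_erase hs
    have hmin : ∀ i ∈ S, a s ≤ a i := by
      intro i hi
      by_cases h : i = x
      · rw [h]; exact hxmax s hsS
      · exact hsmin i (Finset.mem_erase.2 ⟨h, hi⟩)
    by_cases hfit : a x + a s ≤ 1
    · -- pair
      set S' := (S.erase x).erase s with hS'
      have hc1 : (S.erase x).card = S.card - 1 := Finset.card_erase_of_mem hx
      have hc2 : S'.card = S.card - 2 := by
        rw [hS', Finset.card_erase_of_mem hs, hc1]; omega
      have hcp : 2 ≤ S.card := by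
        have : 0 < (S.erase x).card := Finset.card_pos.2 hne'
        omega
      obtain ⟨k, hk, hcert⟩ := ih S'.card (by omega) S' rfl
        (fun i hi => hS i (Finset.mem_of_mem_erase (Finset.mem_of_mem_erase hi)))
      have hunion : S = S' ∪ {x, s} := by
        ext i
        simp only [hS', Finset.mem_union, Finset.mem_erase, Finset.mem_insert,
          Finset.mem_singleton]
        constructor
        · intro hi
          by_cases h1 : i = x
          · exact Or.inr (Or.inl h1)
          · by_cases h2 : i = s
            · exact Or.inr (Or.inr h2)
            · exact Or.inl ⟨h2, h1, hi⟩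
        · rintro (⟨_, _, h⟩ | rfl | rfl)
          · exact h
          · exact hx
          · exact hsS
      have hdisj : Disjoint S' {x, s} := by
        rw [Finset.disjoint_left]
        intro i hi h
        simp only [hS', Finset.mem_erase] at hi
        simp only [Finset.mem_insert, Finset.mem_singleton] at h
        rcases h with h | h
        · exact hi.2.1 h
        · exact hi.1 h
      have hpack : PackN a S (k + 1) := by
        rw [hunion]
        apply add_set hk hdisj
        rw [Finset.sum_pair hsx.symm]
        exact hfit
      refine ⟨k + 1, hpack, ?_⟩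
      have hA : 2 * k ≤ S'.card + 1 → Cert a S (k + 1) := by
        intro h
        left
        omega
      rcases hcert with h | ⟨α, h1, h2, h3⟩
      · exact hA h
      · by_cases hxα : 1 - α < a x
        · right
          refine ⟨α, h1, h2, ?_⟩
          have hb : (S'.filter (fun i => 1 - α < a i)).card + 1 ≤
              (S.filter (fun i => 1 - α < a i)).card := by
            rw [← Finset.card_insert_of_notMem (a := x)
              (s := S'.filter (fun i => 1 - α < a i)) (by simp [hS'])]
            apply Finset.card_le_card
            intro i hi
            rcases Finset.mem_insert.1 hi with h | h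
            · rw [h]; exact Finset.mem_filter.2 ⟨hx, hxα⟩
            · rw [Finset.mem_filter] at h ⊢
              exact ⟨Finset.mem_of_mem_erase (Finset.mem_of_mem_erase h.1), h.2⟩
          have hm : (S'.filter (fun i => α ≤ a i ∧ a i ≤ 1 - α)).card ≤
              (S.filter (fun i => α ≤ a i ∧ a i ≤ 1 - α)).card := by
            apply Finset.card_le_card
            apply Finset.filter_subset_filter
            exact (Finset.erase_subset _ _).trans (Finset.erase_subset _ _)
          omega
        · apply hA
          have h0 : (S'.filter (fun i => 1 - α < a i)).card = 0 := by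
            rw [Finset.card_eq_zero, Finset.filter_eq_empty_iff]
            intro i hi h
            have := hxmax i (Finset.mem_of_mem_erase (Finset.mem_of_mem_erase hi))
            exact hxα (lt_of_lt_of_le h this)
          have h4 := Finset.card_filter_le S' (fun i => α ≤ a i ∧ a i ≤ 1 - α)
          omega
    · -- single
      set S' := S.erase x with hS'
      have hc1 : S'.card = S.card - 1 := Finset.card_erase_of_mem hx
      have hcp : 1 ≤ S'.card := Finset.card_pos.2 hne'
      obtain ⟨k, hk, hcert⟩ := ih S'.card (by omega) S' rfl
        (fun i hi => hS i (Finset.mem_of_mem_erase hi))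
      have hunion : S = S' ∪ {x} := by
        rw [hS', Finset.union_comm]
        exact (Finset.insert_erase hx).symm
      have hpack : PackN a S (k + 1) := by
        rw [hunion]
        apply add_set hk
        · rw [Finset.disjoint_singleton_right]
          exact Finset.notMem_erase x S
        · simpa using (hS x hx).2
      refine ⟨k + 1, hpack, ?_⟩
      have hA : 2 * k ≤ S'.card + 1 → Cert a S (k + 1) := by
        intro h
        right
        by_cases hs2 : a s ≤ 1 / 2
        · refine ⟨a s, (hS s hsS).1, hs2, ?_⟩
          have hxb : x ∈ S.filter (fun i => 1 - a s < a i) :=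
            Finset.mem_filter.2 ⟨hx, by linarith [not_le.1 hfit]⟩
          have h1 : 1 ≤ (S.filter (fun i => 1 - a s < a i)).card :=
            Finset.card_pos.2 ⟨x, hxb⟩
          have h2 : S.card = (S.filter (fun i => 1 - a s < a i)).card +
              (S.filter (fun i => a s ≤ a i ∧ a i ≤ 1 - a s)).card := by
            rw [← Finset.card_filter_add_card_filter_not (s := S) (fun i => 1 - a s < a i)]
            congr 2
            ext i
            simp only [Finset.mem_filter, not_lt]
            constructor
            · rintro ⟨h1, h2⟩; exact ⟨h1, hmin i h1, h2⟩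
            · rintro ⟨h1, _, h2⟩; exact ⟨h1, h2⟩
          omega
        · refine ⟨1 / 2, by norm_num, le_refl _, ?_⟩
          have h1 : S.filter (fun i => 1 - 1 / 2 < a i) = S := by
            apply Finset.filter_true_of_mem
            intro i hi
            have := hmin i hi
            have := not_le.1 hs2
            linarith
          rw [h1]
          omega
      rcases hcert with h | ⟨α, h1, h2, h3⟩
      · exact hA h
      · by_cases hxα : 1 - α < a x
        · right
          refine ⟨α, h1, h2, ?_⟩
          have hb : (S'.filter (fun i => 1 - α < a i)).card + 1 ≤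
              (S.filter (fun i => 1 - α < a i)).card := by
            rw [← Finset.card_insert_of_notMem (a := x)
              (s := S'.filter (fun i => 1 - α < a i)) (by simp [hS'])]
            apply Finset.card_le_card
            intro i hi
            rcases Finset.mem_insert.1 hi with h | h
            · rw [h]; exact Finset.mem_filter.2 ⟨hx, hxα⟩
            · rw [Finset.mem_filter] at h ⊢
              exact ⟨Finset.mem_of_mem_erase h.1, h.2⟩
          have hm : (S'.filter (fun i => α ≤ a i ∧ a i ≤ 1 - α)).card ≤
              (S.filter (fun i => α ≤ a i ∧ a i ≤ 1 - α)).card := by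
            apply Finset.card_le_card
            apply Finset.filter_subset_filter
            exact Finset.erase_subset _ _
          omega
        · apply hA
          have h0 : (S'.filter (fun i => 1 - α < a i)).card = 0 := by
            rw [Finset.card_eq_zero, Finset.filter_eq_empty_iff]
            intro i hi h
            have := hxmax i (Finset.mem_of_mem_erase hi)
            exact hxα (lt_of_lt_of_le h this)
          have h4 := Finset.card_filter_le S' (fun i => α ≤ a i ∧ a i ≤ 1 - α)
          omega

theorem PackN.mono {a : ι → ℚ} {S : Finset ι} {k m : ℕ} (h : PackN a S k) (hkm : k ≤ m) :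
    PackN a S m := by
  obtain ⟨f, hf, hb⟩ := h
  exact ⟨f, fun i hi => lt_of_lt_of_le (hf i hi) hkm, hb⟩

theorem first_fit (a : ι → ℚ) (ha : ∀ i, 0 < a i) (M : ℕ) (hM : 1 ≤ M) (T : ℚ) (S : Finset ι)
    (hk : PackN a S M) (U : Finset ι) :
    Disjoint S U → (∀ i ∈ U, T ≤ M * (1 - a i) + a i) → (∑ i ∈ S ∪ U, a i ≤ T) →
    PackN a (S ∪ U) M := by
  induction U using Finset.induction_on with
  | empty =>
    intro _ _ _
    simpa using hk
  | insert x U hxU ih =>
    intro hd hU hT
    have hd' : Disjoint S U := hd.mono_right (Finset.subset_insert _ _)
    have hxS : x ∉ S := fun h => Finset.disjoint_left.1 hd h (Finset.mem_insert_self _ _)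
    have hxs := hU x (Finset.mem_insert_self _ _)
    have hxSU : x ∉ S ∪ U := by
      rw [Finset.mem_union, not_or]; exact ⟨hxS, hxU⟩
    have hun : S ∪ insert x U = insert x (S ∪ U) := Finset.union_insert _ _ _
    have hsum : ∑ i ∈ S ∪ insert x U, a i = a x + ∑ i ∈ S ∪ U, a i := by
      rw [hun, Finset.sum_insert hxSU]
    have hT' : ∑ i ∈ S ∪ U, a i ≤ T := by linarith [ha x]
    obtain ⟨f, hf, hb⟩ := ih hd' (fun i hi => hU i (Finset.mem_insert_of_mem hi)) hT'
    by_cases hex : ∃ b, b < M ∧ ∑ i ∈ (S ∪ U).filter (fun i => f i = b), a i + a x ≤ 1
    · obtain ⟨b, hbm, hbx⟩ := hex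
      refine ⟨fun i => if i = x then b else f i, ?_, ?_⟩
      · intro i hi
        dsimp only
        split_ifs with h
        · exact hbm
        · rw [hun, Finset.mem_insert] at hi
          exact hf i (hi.resolve_left h)
      · intro b'
        rw [hun, Finset.filter_insert]
        have hcong : (S ∪ U).filter (fun i => (if i = x then b else f i) = b') =
            (S ∪ U).filter (fun i => f i = b') := by
          apply Finset.filter_congr
          intro i hi
          have : i ≠ x := fun h => hxSU (h ▸ hi)
          rw [if_neg this]
        rw [hcong]
        have e : (fun i => if i = x then b else f i) x = b := if_pos rfl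
        rw [e]
        split_ifs with h
        · rw [Finset.sum_insert (by simp [hxSU]), ← h]
          linarith
        · exact hb b'
    · exfalso
      push Not at hex
      have h1 : ∑ i ∈ S ∪ U, a i =
          ∑ b ∈ Finset.range M, ∑ i ∈ (S ∪ U).filter (fun i => f i = b), a i := by
        symm
        apply Finset.sum_fiberwise_of_maps_to
        intro i hi
        exact Finset.mem_range.2 (hf i hi)
      have h2 : (M:ℚ) * (1 - a x) < ∑ i ∈ S ∪ U, a i := by
        rw [h1]
        calc (M:ℚ) * (1 - a x) = ∑ _b ∈ Finset.range M, (1 - a x) := by
              rw [Finset.sum_const, Finset.card_range, nsmul_eq_mul]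
          _ < _ := by
              apply Finset.sum_lt_sum_of_nonempty
              · exact Finset.nonempty_range_iff.2 (by omega)
              · intro b hb
                have := hex b (Finset.mem_range.1 hb)
                linarith
      linarith

end Vale.Agent.H13.BinPack
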