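import Mathlib

/-! Configuration LP for bin packing, weak duality. -/

namespace Vale.Agent.H13.BinPack

open Finset

variable {n : ℕ}

/-- A configuration: `c σ` is the number of items of size `σ` in one bin; only sizes occurring in
the instance are used and the total size is at most `1`. -/
def IsConfig (a : Fin n → ℚ) (c : ℚ →₀ ℕ) : Prop :=
  (∀ σ ∈ c.support, ∃ i, a i = σ) ∧ ∑ σ ∈ c.support, σ * (c σ : ℚ) ≤ 1

/-- A feasible solution of the Gilmore-Gomory configuration LP. -/
def LPFeasible (a : Fin n → ℚ) (z : (ℚ →₀ ℕ) →₀ ℝ) : Prop :=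
  (∀ c, 0 ≤ z c) ∧ (∀ c ∈ z.support, IsConfig a c) ∧
    ∀ i, ((univ.filter (fun j => a j = a i)).card : ℝ) ≤ ∑ c ∈ z.support, (c (a i) : ℝ) * z c

/-- The value of the configuration LP. -/
noncomputable def LP (a : Fin n → ℚ) : ℝ :=
  sInf {v | ∃ z, LPFeasible a z ∧ v = ∑ c ∈ z.support, z c}

theorem feasible_nonempty (a : Fin n → ℚ) (ha : ∀ i, 0 < a i ∧ a i ≤ 1) :
    ∃ z, LPFeasible a z := by
  classical
  set z : (ℚ →₀ ℕ) →₀ ℝ := ∑ j : Fin n, Finsupp.single (Finsupp.single (a j) 1) (1:ℝ) with hz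
  have happ : ∀ c, z c = ∑ j : Fin n, if Finsupp.single (a j) 1 = c then (1:ℝ) else 0 := by
    intro c
    rw [hz, Finsupp.finsetSum_apply]
    apply Finset.sum_congr rfl
    intro j _
    rw [Finsupp.single_apply]
  refine ⟨z, ?_, ?_, ?_⟩
  · intro c
    rw [happ]
    apply Finset.sum_nonneg
    intro j _
    split_ifs <;> norm_num
  · intro c hc
    rw [Finsupp.mem_support_iff, happ] at hc
    obtain ⟨j, _, hj⟩ := Finset.exists_ne_zero_of_sum_ne_zero hc
    have hcj : Finsupp.single (a j) 1 = c := by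
      by_contra h
      exact hj (if_neg h)
    rw [← hcj]
    constructor
    · intro σ hσ
      rw [Finsupp.support_single_ne_zero _ one_ne_zero, Finset.mem_singleton] at hσ
      exact ⟨j, hσ.symm⟩
    · rw [Finsupp.support_single_ne_zero _ one_ne_zero, Finset.sum_singleton,
        Finsupp.single_eq_same]
      push_cast
      linarith [(ha j).2]
  · intro i
    have h1 : ∑ c ∈ z.support, (c (a i) : ℝ) * z c = z.sum (fun c t => (c (a i) : ℝ) * t) := rfl
    have h3 : z.sum (fun c t => (c (a i) : ℝ) * t) =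
        Finsupp.liftAddHom (fun c : ℚ →₀ ℕ => AddMonoidHom.mulLeft ((c (a i) : ℕ) : ℝ)) z := by
      rw [Finsupp.liftAddHom_apply]
      rfl
    rw [h1, h3, hz, map_sum]
    have h2 : ∀ j : Fin n, (Finsupp.liftAddHom
        (fun c : ℚ →₀ ℕ => AddMonoidHom.mulLeft ((c (a i) : ℕ) : ℝ)))
        (Finsupp.single (Finsupp.single (a j) 1) (1:ℝ)) = if a j = a i then 1 else 0 := by
      intro j
      rw [Finsupp.liftAddHom_apply_single, AddMonoidHom.coe_mulLeft, mul_one,
        Finsupp.single_apply]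
      split_ifs <;> simp
    rw [Finset.sum_congr rfl (fun j _ => h2 j), Finset.sum_boole]

/-- weak duality -/
theorem dual (a : Fin n → ℚ) (ha : ∀ i, 0 < a i ∧ a i ≤ 1) (w : ℚ → ℝ) (hw0 : ∀ σ, 0 ≤ w σ)
    (hw : ∀ c : ℚ →₀ ℕ, IsConfig a c → ∑ σ ∈ c.support, w σ * (c σ : ℝ) ≤ 1) :
    ∑ i, w (a i) ≤ LP a := by
  classical
  obtain ⟨z0, hz0⟩ := feasible_nonempty a ha
  unfold LP
  refine le_csInf ⟨∑ c ∈ z0.support, z0 c, z0, hz0, rfl⟩ ?_
  rintro v ⟨z, ⟨hz1, hz2, hz3⟩, rfl⟩
  have h1 : ∑ i, w (a i) = ∑ σ ∈ univ.image a, ((univ.filter (fun j => a j = σ)).card : ℝ) * w σ := by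
    rw [Finset.sum_comp w a]
    apply Finset.sum_congr rfl
    intro σ _
    rw [nsmul_eq_mul]
  rw [h1]
  calc ∑ σ ∈ univ.image a, ((univ.filter (fun j => a j = σ)).card : ℝ) * w σ
      ≤ ∑ σ ∈ univ.image a, (∑ c ∈ z.support, (c σ : ℝ) * z c) * w σ := by
        apply Finset.sum_le_sum
        intro σ hσ
        obtain ⟨i, _, rfl⟩ := Finset.mem_image.1 hσ
        exact mul_le_mul_of_nonneg_right (hz3 i) (hw0 _)
    _ = ∑ c ∈ z.support, z c * ∑ σ ∈ univ.image a, w σ * (c σ : ℝ) := by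
        simp_rw [Finset.sum_mul, Finset.mul_sum]
        rw [Finset.sum_comm]
        apply Finset.sum_congr rfl
        intro c _
        apply Finset.sum_congr rfl
        intro σ _
        ring
    _ ≤ ∑ c ∈ z.support, z c * 1 := by
        apply Finset.sum_le_sum
        intro c hc
        apply mul_le_mul_of_nonneg_left _ (hz1 c)
        refine le_trans (le_of_eq ?_) (hw c (hz2 c hc))
        symm
        apply Finset.sum_subset
        · intro σ hσ
          obtain ⟨i, hi⟩ := (hz2 c hc).1 σ hσ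
          exact Finset.mem_image.2 ⟨i, mem_univ _, hi⟩
        · intro σ _ hσ
          rw [Finsupp.notMem_support_iff.1 hσ]
          simp
    _ = ∑ c ∈ z.support, z c := by simp

/-- total size is a lower bound -/
theorem total_le (a : Fin n → ℚ) (ha : ∀ i, 0 < a i ∧ a i ≤ 1) :
    ((∑ i, a i : ℚ) : ℝ) ≤ LP a := by
  have h := dual a ha (fun σ => max (σ:ℝ) 0) (fun σ => le_max_right _ _) (by
    intro c hc
    have h1 : ∑ σ ∈ c.support, max ((σ:ℚ):ℝ) 0 * (c σ : ℝ) =
        ((∑ σ ∈ c.support, σ * (c σ : ℚ) : ℚ) : ℝ) := by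
      push_cast
      apply Finset.sum_congr rfl
      intro σ hσ
      obtain ⟨i, hi⟩ := hc.1 σ hσ
      have : (0:ℝ) ≤ (σ:ℝ) := by
        rw [← hi]; exact_mod_cast (ha i).1.le
      rw [max_eq_left this]
    rw [h1]
    exact_mod_cast hc.2)
  refine le_trans (le_of_eq ?_) h
  push_cast
  apply Finset.sum_congr rfl
  intro i _
  have : (0:ℝ) ≤ (a i:ℝ) := by exact_mod_cast (ha i).1.le
  rw [max_eq_left this]

/-- weights `1/2` on the sizes `> 1/3` -/
theorem dual_half (a : Fin n → ℚ) (ha : ∀ i, 0 < a i ∧ a i ≤ 1) :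
    ((univ.filter (fun i => 1 / 3 < a i)).card : ℝ) ≤ 2 * LP a := by
  classical
  have h := dual a ha (fun σ => if 1 / 3 < σ then 1 / 2 else 0)
    (fun σ => by split_ifs <;> norm_num) (by
    intro c hc
    have h1 : ∑ σ ∈ c.support, (if 1 / 3 < σ then (1 / 2 : ℝ) else 0) * (c σ : ℝ) =
        (1 / 2) * ((∑ σ ∈ c.support.filter (fun σ => 1 / 3 < σ), c σ : ℕ) : ℝ) := by
      rw [Finset.sum_filter]
      push_cast
      rw [Finset.mul_sum]
      apply Finset.sum_congr rfl
      intro σ _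
      split_ifs <;> simp
    rw [h1]
    set N := ∑ σ ∈ c.support.filter (fun σ => 1 / 3 < σ), c σ with hN
    have h2 : N ≤ 2 := by
      by_contra hcon
      have hpos : ∀ σ ∈ c.support, 0 ≤ σ * (c σ : ℚ) := by
        intro σ hσ
        obtain ⟨i, hi⟩ := hc.1 σ hσ
        have := (ha i).1
        rw [hi] at this
        positivity
      have h3 : ∑ σ ∈ c.support.filter (fun σ => 1 / 3 < σ), σ * (c σ : ℚ) ≤ 1 :=
        le_trans (Finset.sum_le_sum_of_subset_of_nonneg (Finset.filter_subset _ _)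
          (fun σ h _ => hpos σ h)) hc.2
      have hne : (c.support.filter (fun σ => 1 / 3 < σ)).Nonempty := by
        by_contra he
        rw [Finset.not_nonempty_iff_eq_empty] at he
        rw [hN, he] at hcon
        simp at hcon
      have h4 : (1 / 3 : ℚ) * (N : ℚ) <
          ∑ σ ∈ c.support.filter (fun σ => 1 / 3 < σ), σ * (c σ : ℚ) := by
        rw [hN]
        push_cast
        rw [Finset.mul_sum]
        apply Finset.sum_lt_sum_of_nonempty hne
        intro σ hσ
        rw [Finset.mem_filter] at hσ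
        have : (0:ℚ) < (c σ : ℚ) := by
          exact_mod_cast Nat.pos_of_ne_zero (Finsupp.mem_support_iff.1 hσ.1)
        exact mul_lt_mul_of_pos_right hσ.2 this
      have h5 : (3:ℚ) ≤ N := by exact_mod_cast (by omega : 3 ≤ N)
      linarith
    have h3 : (N:ℝ) ≤ 2 := by exact_mod_cast h2
    linarith)
  have h1 : ∑ i, (if 1 / 3 < a i then (1 / 2 : ℝ) else 0) =
      (1 / 2) * ((univ.filter (fun i => 1 / 3 < a i)).card : ℝ) := by
    rw [← Finset.sum_filter, Finset.sum_const, nsmul_eq_mul]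
    ring
  rw [h1] at h
  linarith

/-- weights `1` on sizes `> 1 - α` and `1/2` on sizes in `[α, 1 - α]` -/
theorem dual_alpha (a : Fin n → ℚ) (ha : ∀ i, 0 < a i ∧ a i ≤ 1) (α : ℚ) (h3 : 1 / 3 < α)
    (h2 : α ≤ 1 / 2) :
    2 * ((univ.filter (fun i => 1 - α < a i)).card : ℝ) +
      ((univ.filter (fun i => α ≤ a i ∧ a i ≤ 1 - α)).card : ℝ) ≤ 2 * LP a := by
  classical
  have h := dual a ha (fun σ => (if 1 - α < σ then (1:ℝ) else 0) +
      (if α ≤ σ ∧ σ ≤ 1 - α then 1 / 2 else 0))
    (fun σ => by split_ifs <;> norm_num) (by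
    intro c hc
    set p := ∑ σ ∈ c.support.filter (fun σ => 1 - α < σ), c σ with hp
    set q := ∑ σ ∈ c.support.filter (fun σ => α ≤ σ ∧ σ ≤ 1 - α), c σ with hq
    have h1 : ∑ σ ∈ c.support, ((if 1 - α < σ then (1:ℝ) else 0) +
        (if α ≤ σ ∧ σ ≤ 1 - α then 1 / 2 else 0)) * (c σ : ℝ) = (p:ℝ) + (1 / 2) * (q:ℝ) := by
      rw [hp, hq, Finset.sum_filter, Finset.sum_filter]
      push_cast
      rw [Finset.mul_sum, ← Finset.sum_add_distrib]
      apply Finset.sum_congr rfl
      intro σ _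
      split_ifs <;> simp <;> ring
    rw [h1]
    have hsz : (1 - α) * (p:ℚ) + α * (q:ℚ) ≤ ∑ σ ∈ c.support, σ * (c σ : ℚ) := by
      rw [hp, hq, Finset.sum_filter, Finset.sum_filter]
      push_cast
      rw [Finset.mul_sum, Finset.mul_sum, ← Finset.sum_add_distrib]
      apply Finset.sum_le_sum
      intro σ hσ
      obtain ⟨i, hi⟩ := hc.1 σ hσ
      have hσ0 := (ha i).1
      rw [hi] at hσ0
      have hc0 : (0:ℚ) ≤ (c σ : ℚ) := by positivity
      split_ifs with u v
      · linarith [v.2]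
      · nlinarith
      · nlinarith
      · rw [mul_zero, mul_zero, add_zero]; positivity
    have hszlt : 0 < p → (1 - α) * (p:ℚ) + α * (q:ℚ) < ∑ σ ∈ c.support, σ * (c σ : ℚ) := by
      intro hp0
      obtain ⟨σ0, hσ0, hσ0'⟩ : ∃ σ ∈ c.support.filter (fun σ => 1 - α < σ), c σ ≠ 0 := by
        apply Finset.exists_ne_zero_of_sum_ne_zero
        rw [← hp]; omega
      rw [hp, hq, Finset.sum_filter, Finset.sum_filter]
      push_cast
      rw [Finset.mul_sum, Finset.mul_sum, ← Finset.sum_add_distrib]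
      rw [Finset.mem_filter] at hσ0
      apply Finset.sum_lt_sum
      · intro σ hσ
        obtain ⟨i, hi⟩ := hc.1 σ hσ
        have hσ0 := (ha i).1
        rw [hi] at hσ0
        have hc0 : (0:ℚ) ≤ (c σ : ℚ) := by positivity
        split_ifs with u v
        · linarith [v.2]
        · nlinarith
        · nlinarith
        · rw [mul_zero, mul_zero, add_zero]; positivity
      · refine ⟨σ0, hσ0.1, ?_⟩
        have hc0 : (0:ℚ) < (c σ0 : ℚ) := by
          exact_mod_cast Nat.pos_of_ne_zero hσ0'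
        rw [if_pos hσ0.2, if_neg (fun hh => absurd hσ0.2 (not_lt.2 hh.2)), mul_zero, add_zero]
        exact mul_lt_mul_of_pos_right hσ0.2 hc0
    have hle := hc.2
    have hq0 : (0:ℚ) ≤ q := by positivity
    have key : 2 * p + q ≤ 2 := by
      rcases Nat.eq_zero_or_pos p with hp0 | hp0
      · rw [hp0] at hsz ⊢
        by_contra hcon
        have : (3:ℚ) ≤ q := by exact_mod_cast (by omega : 3 ≤ q)
        push_cast at hsz
        nlinarith
      · have hlt := hszlt hp0
        have hp1 : (1:ℚ) ≤ p := by exact_mod_cast hp0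
        by_contra hcon
        by_cases hp2 : 2 ≤ p
        · have : (2:ℚ) ≤ p := by exact_mod_cast hp2
          nlinarith
        · have hpe : p = 1 := by omega
          have hq1 : (1:ℚ) ≤ q := by exact_mod_cast (by omega : 1 ≤ q)
          rw [hpe] at hlt
          push_cast at hlt
          nlinarith
    have key' : (2:ℝ) * p + q ≤ 2 := by exact_mod_cast key
    linarith)
  rw [Finset.sum_add_distrib] at h
  have h1 : ∑ i, (if 1 - α < a i then (1 : ℝ) else 0) =
      ((univ.filter (fun i => 1 - α < a i)).card : ℝ) := by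
    rw [← Finset.sum_filter, Finset.sum_const, nsmul_eq_mul]
    ring
  have h2' : ∑ i, (if α ≤ a i ∧ a i ≤ 1 - α then (1 / 2 : ℝ) else 0) =
      (1 / 2) * ((univ.filter (fun i => α ≤ a i ∧ a i ≤ 1 - α)).card : ℝ) := by
    rw [← Finset.sum_filter, Finset.sum_const, nsmul_eq_mul]
    ring
  rw [h1, h2'] at h
  linarith

end Vale.Agent.H13.BinPack
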